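import Vale.Agent.P127.Bdl.B4
import Vale.Agent.P127.KDefs

/-!
# P127: a new estimate for the Kakeya maximal function, and for the Hausdorff dimension

With `α = 1.67513...` the largest root of `α ^ 3 - 4 α + 2` and `d = (n - 1) / α + 1`:
`∫ (K_δ f) ^ p ≤ C δ ^ (-(n - d) - ε) ∫ f ^ p` for all large `p`, and `dimH K ≥ d` for all Kakeya
sets `K` in `ℝ ^ n`.
-/

namespace Vale.Agent.Results.P127.KakeyaMaximal

open MeasureTheory Vale.Agent.P127 Vale.Agent.P127.Fin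

theorem result :
    ∃ α : ℝ, 1.67512 < α ∧ α < 1.67514 ∧ α ^ 3 - 4 * α + 2 = 0 ∧ ∀ n : ℕ, 2 ≤ n →
      (36 ≤ n → (2 - Real.sqrt 2) * n + 4 / 5 < ((n : ℝ) - 1) / α + 1) ∧
      (∀ ε : ℝ, 0 < ε → ∃ p₀ : ℝ, 1 ≤ p₀ ∧ ∀ p : ℝ, p₀ ≤ p → ∃ C : ℝ,
        ∀ δ : ℝ, 0 < δ → δ < 1 → ∀ f : EuclideanSpace ℝ (Fin n) → ENNReal, Measurable f →
          ∃ G : EuclideanSpace ℝ (Fin n) → ENNReal, Measurable G ∧
            (∀ e, ‖e‖ = 1 → kakeyaMax δ f e ≤ G e) ∧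
            ∫⁻ e, G e ^ p ∂(surf n) ≤
              ENNReal.ofReal (C * δ ^ (-((n : ℝ) - (((n : ℝ) - 1) / α + 1)) - ε)) *
                ∫⁻ x, f x ^ p) ∧
      ∀ K : Set (EuclideanSpace ℝ (Fin n)),
        (∀ e : EuclideanSpace ℝ (Fin n), ‖e‖ = 1 →
          ∃ a : EuclideanSpace ℝ (Fin n), ∀ t ∈ Set.Icc (0 : ℝ) 1, a + t • e ∈ K) →
        ENNReal.ofReal (((n : ℝ) - 1) / α + 1) ≤ dimH K := by
  obtain ⟨α, hα1, hα⟩ := exists_root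
  refine ⟨α, (root_bounds hα1 hα).1, (root_bounds hα1 hα).2, hα, fun n hn => ⟨?_, ?_, ?_⟩⟩
  · exact fun h36 => compare hα1 hα h36
  · exact fun ε hε => maximal' hα1 hα (by omega) hε
  · exact fun K hK => bound hα1 hα (by omega) hK

end Vale.Agent.Results.P127.KakeyaMaximal
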