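import Vale.Agent.P127.Bdl.B9

/-!
# P127: sticky Kakeya sets in `ℝ ^ n` have Hausdorff dimension `n`, for every `n ≥ 2`
-/

namespace Vale.Agent.Results.P127.StickyKakeya

open MeasureTheory Vale.Agent.P127.St

theorem result (n : ℕ) (hn : 2 ≤ n) :
    (∀ K : Set (EuclideanSpace ℝ (Fin n)), IsStickyKakeya n K → dimH K = n) ∧
    ∀ ε : ℝ, 0 < ε → ∃ η : ℝ, 0 < η ∧ ∀ K : Set (EuclideanSpace ℝ (Fin n)),
      HasSegments volume ((n : ℝ) - 1 + η) K → ENNReal.ofReal ((n : ℝ) - ε) ≤ dimH K :=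
  ⟨sticky n hn, nearSticky n hn⟩

end Vale.Agent.Results.P127.StickyKakeya
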